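import Vale.Agent.P343.H741.WIface

/-!
Row S: one level of the recursion, from the words part and the toggles.
-/

namespace Vale.Agent.P343.H753

open Vale.Agent.P343.H741

variable {Q : Type}

theorem wd_append {P : Type} (g : P → NB Q) (w w' : List P) :
    wd g (w ++ w') = wd g w * wd g w' := by
  unfold wd
  rw [List.map_append, List.prod_append]

theorem wd_rep {P : Type} (g : P → NB Q) (w : List P) (k : ℕ) :
    wd g (Box.rep w k) = wd g w ^ k := by
  induction k with
  | zero => simp [Box.rep, wd]
  | succ k ih => rw [Box.rep, wd_append, ih, pow_succ']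

theorem wd_flatMap {P R : Type} (g : P → NB Q) (L : List R) (t : R → List P) :
    wd g (L.flatMap t) = (L.map (fun j => wd g (t j))).prod := by
  induction L with
  | nil => simp [wd]
  | cons x L ih => rw [List.flatMap_cons, wd_append, ih, List.map_cons, List.prod_cons]

theorem pv_append {T' : Type} (e f : NB Q) (x : T' → Bool) (L L' : List (NB Q ⊕ T')) :
    pv e f x (L ++ L') = pv e f x L * pv e f x L' := by
  unfold pv
  rw [List.map_append, List.prod_append]

theorem pv_map {α T' : Type} (G : α → NB Q) (L0 L1 : List α) (x : T' → Bool)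
    (C : List (α ⊕ T')) :
    pv (wd G L0) (wd G L1) x (C.map (Sum.map G id)) = wd G (Box.expand L0 L1 x C) := by
  induction C with
  | nil => simp [pv, Box.expand, wd]
  | cons p C ih =>
    have h3 : Box.expand L0 L1 x (p :: C) =
        (Sum.elim (fun s => [s]) (fun t => if x t then L1 else L0) p) ++
          Box.expand L0 L1 x C := by
      unfold Box.expand
      rw [List.flatMap_cons]
    rw [h3, wd_append, ← ih]
    unfold pv
    rw [List.map_cons, List.map_cons, List.prod_cons]
    congr 1
    rcases p with s | t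
    · simp [wd]
    · by_cases hx : x t = true
      · simp [hx]
      · simp [hx]

theorem countP_isT_map {α β T' : Type} (G : α → β) (C : List (α ⊕ T')) (t : T') :
    (C.map (Sum.map G id)).countP (Box.isT t) = C.countP (Box.isT t) := by
  induction C with
  | nil => rfl
  | cons p C ih =>
    rw [List.map_cons, List.countP_cons, List.countP_cons, ih]
    rcases p with s | t'
    · rfl
    · rfl

/-- One level of the recursion. -/
theorem stepStmt (hW : WordsStmt) (hG : ToggleStmt) : StepStmt := by
  intro V _ s0 f0 n hn Q _ M hM a hNorm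
  obtain ⟨hid, hL, hR, Act, hActc, hAct⟩ := hNorm
  -- the classes touched by the chain
  set U : Set (Bool × Set Q) :=
    ⋃ i : Fin n, (Act (false, Box.trkW V i) ∪ Act (true, Box.trkP V i)) with hU
  have hUcard : U.ncard ≤ n * (2 * a) := by
    have h1 : ∀ i : Fin n,
        (Act (false, Box.trkW V i) ∪ Act (true, Box.trkP V i)).ncard ≤ 2 * a := by
      intro i
      refine (Set.ncard_union_le _ _).trans ?_
      have h1 := hActc (false, Box.trkW V i)
      have h2 := hActc (true, Box.trkP V i)
      omega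
    have h2 : U = ((Finset.univ : Finset (Fin n)).biUnion (fun i : Fin n =>
        (Set.toFinite (Act (false, Box.trkW V i) ∪ Act (true, Box.trkP V i))).toFinset) :
          Set (Bool × Set Q)) := by
      rw [hU]
      ext κ
      simp
    rw [h2, Set.ncard_coe_finset]
    refine Finset.card_biUnion_le.trans ?_
    calc ∑ i : Fin n, (Set.toFinite (Act (false, Box.trkW V i) ∪
          Act (true, Box.trkP V i))).toFinset.card
        ≤ ∑ _i : Fin n, 2 * a := by
          apply Finset.sum_le_sum
          intro i _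
          rw [← Set.ncard_eq_toFinset_card]
          exact h1 i
      _ = n * (2 * a) := by
          simp only [Finset.sum_const, Finset.card_univ, Fintype.card_fin, smul_eq_mul]
  have hUpass : ∀ c, c < n * n → ∀ d x, Pt (M.G (Box.idSym _)) d x →
      (d, cl (M.G (Box.idSym _)) d x) ∉ U →
      X (M.G (Box.idSym _)) (M.G (Box.edgeN V n c)) d x x := by
    intro c _ d x hx hxU
    refine hAct _ (fun v => rfl) d x hx ?_ ?_
    · intro v hv hmem
      obtain ⟨i, rfl, _⟩ := Box.isW_iff.1 (show Box.isW _ v = true from hv)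
      exact hxU (Set.mem_iUnion.2 ⟨i, Or.inl hmem⟩)
    · intro v hv hmem
      obtain ⟨i, rfl, _⟩ := Box.isP_iff.1 (show Box.isP _ v = true from hv)
      exact hxU (Set.mem_iUnion.2 ⟨i, Or.inr hmem⟩)
  obtain ⟨L0, L1, C, he, hf, hef, hfe, hlost, hC, hcount, hact⟩ :=
    hW V n hn Q M.G U hid hL hR hUpass
  set e := wd M.G L0 with hedef
  set f := wd M.G L1 with hfdef
  have hN : n * (2 * (Lost e f).ncard) ≤ 8 * a := by
    have h2 : n * (n * (2 * (Lost e f).ncard)) ≤ n * (8 * a) := by
      calc n * (n * (2 * (Lost e f).ncard)) = 2 * (n * n * (Lost e f).ncard) := by ring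
        _ ≤ 2 * (2 * U.ncard) := Nat.mul_le_mul_left _ hlost
        _ ≤ 2 * (2 * (n * (2 * a))) := by
            exact Nat.mul_le_mul_left _ (Nat.mul_le_mul_left _ hUcard)
        _ = n * (8 * a) := by ring
    exact Nat.le_of_mul_le_mul_left h2 hn
  -- the cells
  let w : Box.Sym V → List (Box.Sym (Box.Ext V n)) := fun a => Box.expand L0 L1 (Box.bits a) C
  let w0 := w (Box.idSym V)
  obtain ⟨k, hk, hidem⟩ := exists_pow_idem (wd M.G w0)
  set b := wd M.G w0 with hb
  let m : Box.Sym V → List (Box.Sym (Box.Ext V n)) := fun a =>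
    Box.rep w0 k ++ (w a ++ (Box.rep w0 (k - 1) ++ Box.rep w0 k))
  have hm : ∀ s, wd M.G (m s) = b ^ k * (wd M.G (w s) * (b ^ (k - 1) * b ^ k)) := by
    intro s
    show wd M.G (Box.rep w0 k ++ (w s ++ (Box.rep w0 (k - 1) ++ Box.rep w0 k))) = _
    rw [wd_append, wd_append, wd_append, wd_rep, wd_rep]
  have hm0 : wd M.G (m (Box.idSym V)) = b ^ k := by
    rw [hm]
    show b ^ k * (b * (b ^ (k - 1) * b ^ k)) = b ^ k
    have h1 : b * (b ^ (k - 1) * b ^ k) = b ^ k * b ^ k := by
      rw [← mul_assoc, ← pow_succ']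
      congr 2
      omega
    rw [h1, hidem, hidem]
  have hact0 : ∀ S : Set V, Box.acts w0 (Sum.inl '' S) = Sum.inl '' S := by
    intro S
    show Box.acts (Box.expand L0 L1 (Box.bits (Box.idSym V)) C) (Sum.inl '' S) = Sum.inl '' S
    rw [hact, Box.idSym_act]
  have hactm : ∀ (a : Box.Sym V) (S : Set V),
      Box.acts (m a) (Sum.inl '' S) = (Sum.inl '' (a.act S) : Set (Box.Ext V n)) := by
    intro a S
    show Box.acts (Box.rep w0 k ++ (w a ++ (Box.rep w0 (k - 1) ++ Box.rep w0 k)))
      (Sum.inl '' S) = _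
    rw [Box.acts_append1, Box.acts_rep1 _ _ hact0, Box.acts_append1]
    show Box.acts (Box.rep w0 (k - 1) ++ Box.rep w0 k)
      (Box.acts (Box.expand L0 L1 (Box.bits a) C) (Sum.inl '' S)) = _
    rw [hact, Box.acts_append1, Box.acts_rep1 _ _ hact0, Box.acts_rep1 _ _ hact0]
  let Lp : List (NB Q ⊕ (Fin 3 × V)) :=
    [Sum.inl (b ^ k)] ++ (C.map (Sum.map M.G id) ++ [Sum.inl (b ^ (k - 1)), Sum.inl (b ^ k)])
  have hLpval : ∀ s : Box.Sym V, pv e f (Box.bits s) Lp = wd M.G (m s) := by
    intro s
    show pv e f (Box.bits s) ([Sum.inl (b ^ k)] ++ (C.map (Sum.map M.G id) ++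
      [Sum.inl (b ^ (k - 1)), Sum.inl (b ^ k)])) = _
    rw [pv_append, pv_append, hedef, hfdef, pv_map, hm]
    simp [pv, w]
  have hLp0 : pv e f (Box.bits (Box.idSym V)) Lp = b ^ k := by rw [hLpval, hm0]
  obtain ⟨Act', hAct'c, hAct'⟩ := hG Q (Fin 3 × V) e f Lp (Box.bits (Box.idSym V)) he hf hef hfe
    (by simp [Lp]) (by rw [hLp0, hidem]) (by
      intro t _
      show ([Sum.inl (b ^ k)] ++ (C.map (Sum.map M.G id) ++
        [Sum.inl (b ^ (k - 1)), Sum.inl (b ^ k)]) : List (NB Q ⊕ (Fin 3 × V))).countP
          (Box.isT t) ≤ 1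
      rw [List.countP_append, List.countP_append, countP_isT_map]
      have := hcount t
      simp only [Box.isT, List.countP_cons, List.countP_nil, Sum.elim_inl] at this ⊢
      simpa using this)
  refine ⟨⟨fun s => wd M.G (m s), M.bl, M.br, M.start, M.fin⟩, 2 * (Lost e f).ncard,
    ⟨?_, ?_, ?_, fun p => Act' (if p.1 then 1 else 0, p.2), ?_, ?_⟩, hN, ?_⟩
  · show wd M.G (m (Box.idSym V)) * wd M.G (m (Box.idSym V)) = wd M.G (m (Box.idSym V))
    rw [hm0, hidem]
  · intro s
    show wd M.G (m (Box.idSym V)) * wd M.G (m s) = wd M.G (m s)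
    rw [hm0, hm, ← mul_assoc, hidem]
  · intro s
    show wd M.G (m s) * wd M.G (m (Box.idSym V)) = wd M.G (m s)
    rw [hm0, hm]
    simp only [mul_assoc]
    rw [hidem]
  · rintro ⟨c, v⟩
    apply hAct'c
    rw [Box.bits_idSym]
    cases c <;> simp
  · intro s hs d x hx h0 h1
    show X (wd M.G (m (Box.idSym V))) (wd M.G (m s)) d x x
    have hx' : Pt (wd M.G (m (Box.idSym V))) d x := hx
    rw [← hLpval, ← hLpval]
    rw [← hLpval] at hx'
    refine hAct' (Box.bits s) ?_ d x hx' ?_
    · rintro ⟨c, v⟩ hc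
      rw [Box.bits_idSym] at hc
      simp only [decide_eq_true_eq] at hc
      unfold Box.bits
      simp only
      rw [if_neg hc.1, if_neg hc.2]
      exact hs v
    · rintro ⟨c, v⟩ hc hc'
      rw [Box.bits_idSym] at hc
      unfold Box.bits at hc'
      simp only at hc'
      rw [hLpval]
      by_cases hc0 : c = 0
      · subst hc0
        rw [if_pos rfl] at hc'
        exact h0 v hc'
      · rw [if_neg hc0] at hc'
        by_cases hc1 : c = 1
        · subst hc1
          rw [if_pos rfl] at hc'
          exact h1 v hc'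
        · simp [hc0, hc1] at hc
  · intro ws
    have h1 : (BAut.mk (fun s => wd M.G (m s)) M.bl M.br M.start M.fin).Acc ws ↔
        M.Acc (ws.flatMap m) := by
      unfold BAut.Acc
      have h2 : (ws.map (fun s => wd M.G (m s))).prod = ((ws.flatMap m).map M.G).prod :=
        (wd_flatMap M.G ws m).symm
      show (M.bl * (ws.map (fun s => wd M.G (m s))).prod * M.br) _ _ ↔ _
      rw [h2]
    rw [h1, hM]
    have h3 := Box.acts_macro (Sum.inl : V → Box.Ext V n) [] m (fun S => rfl) hactm ws {s0}
    simp only [List.append_nil, List.nil_append] at h3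
    unfold Box.RLang
    rw [← Set.image_singleton, h3]
    exact not_congr Sum.inl_injective.mem_set_image

end Vale.Agent.P343.H753
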